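import Mathlib

/-!
Elementary sums over integers used for counting grid points (P126).
-/

open Finset Real

namespace Vale.Agent.P126.Uncond

/-- A set is solid (1-unconditional) when it contains all coordinatewise smaller vectors. -/
def Solid {ι : Type*} (S : Set (ι → ℝ)) : Prop :=
  ∀ x ∈ S, ∀ y : ι → ℝ, (∀ i, |y i| ≤ |x i|) → y ∈ S

theorem sum_mul_abs_le_of_solid {ι : Type*} [Fintype ι] {S : Set (ι → ℝ)} (hS : Solid S)
    {e : ι → ℝ} {η : ℝ} (h : ∀ x ∈ S, |∑ i, x i * e i| ≤ η) {x : ι → ℝ} (hx : x ∈ S) :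
    ∑ i, |x i| * |e i| ≤ η := by
  classical
  have h1 := h (fun i => if 0 ≤ e i then |x i| else -|x i|)
    (hS x hx _ fun i => by split_ifs <;> simp)
  refine le_trans (le_of_eq (sum_congr rfl fun i _ => ?_)) ((le_abs_self _).trans h1)
  split_ifs with he
  · rw [abs_of_nonneg he]
  · rw [abs_of_neg (not_le.1 he)]
    ring

theorem Icc_neg_succ (B : ℕ) :
    Icc (-((B + 1 : ℕ) : ℤ)) ((B + 1 : ℕ) : ℤ) =
      insert ((B + 1 : ℕ) : ℤ) (insert (-((B + 1 : ℕ) : ℤ)) (Icc (-(B : ℤ)) B)) := by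
  ext k
  simp only [mem_Icc, mem_insert]
  omega

theorem sum_Icc_succ (f : ℤ → ℝ) (B : ℕ) :
    ∑ k ∈ Icc (-((B + 1 : ℕ) : ℤ)) ((B + 1 : ℕ) : ℤ), f k =
      f ((B + 1 : ℕ) : ℤ) + (f (-((B + 1 : ℕ) : ℤ)) + ∑ k ∈ Icc (-(B : ℤ)) B, f k) := by
  rw [Icc_neg_succ, sum_insert (by simp only [mem_insert, mem_Icc]; omega),
    sum_insert (by simp only [mem_Icc]; omega)]

theorem sum_exp_neg_abs_le (A : Finset ℤ) (j : ℤ) {u : ℝ} (hu : 0 < u) :
    ∑ k ∈ A, exp (-(u * |((k - j : ℤ) : ℝ)|)) ≤ 1 + 2 / (exp u - 1) := by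
  set g : ℤ → ℝ := fun k => exp (-(u * |(k : ℝ)|)) with hg
  set B := (A.image (· - j)).sup Int.natAbs
  have hsub : A.image (· - j) ⊆ Icc (-(B : ℤ)) B := fun k hk => by
    have : k.natAbs ≤ B := le_sup (f := Int.natAbs) hk
    rw [mem_Icc]
    omega
  have hq1 : 0 < exp u - 1 := by linarith [add_one_le_exp u]
  have hind : ∀ m : ℕ, ∑ k ∈ Icc (-(m : ℤ)) m, g k =
      1 + 2 / (exp u - 1) - 2 * exp (-(u * m)) / (exp u - 1) := by
    intro m
    induction m with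
    | zero => simp [hg]
    | succ m ih =>
      rw [sum_Icc_succ, ih]
      have e1 : g ((m + 1 : ℕ) : ℤ) = exp (-(u * (m + 1 : ℕ))) := by simp [hg, abs_of_nonneg,
        (by positivity : (0 : ℝ) ≤ (m : ℝ) + 1)]
      have e2 : g (-((m + 1 : ℕ) : ℤ)) = exp (-(u * (m + 1 : ℕ))) := by
        rw [← e1]; simp only [hg, Int.cast_neg, abs_neg]
      have e3 : exp (-(u * (m : ℝ))) = exp u * exp (-(u * (m + 1 : ℕ))) := by
        rw [← exp_add]; congr 1; push_cast; ring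
      rw [e1, e2, e3]
      field_simp
      ring
  calc ∑ k ∈ A, exp (-(u * |((k - j : ℤ) : ℝ)|))
      = ∑ k ∈ A.image (· - j), g k := by
        rw [sum_image fun a _ b _ e => sub_left_injective e]
    _ ≤ ∑ k ∈ Icc (-(B : ℤ)) B, g k :=
        sum_le_sum_of_subset_of_nonneg hsub fun k _ _ => (exp_pos _).le
    _ ≤ _ := by
        rw [hind]
        have : 0 ≤ 2 * exp (-(u * B)) / (exp u - 1) := by positivity
        linarith

theorem sum_inv_sq_le (B : ℕ) :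
    ∑ k ∈ Icc (-(B : ℤ)) B, 1 / (2 * |(k : ℝ)| + 1) ^ 2 ≤ 3 / 2 := by
  suffices h : ∑ k ∈ Icc (-(B : ℤ)) B, 1 / (2 * |(k : ℝ)| + 1) ^ 2 ≤
      3 / 2 - 1 / (2 * ((B : ℝ) + 1)) by
    have : (0 : ℝ) ≤ 1 / (2 * (B + 1)) := by positivity
    linarith
  induction B with
  | zero => norm_num
  | succ B ih =>
    rw [sum_Icc_succ]
    have hB : (0 : ℝ) ≤ (B : ℝ) := by positivity
    simp only [Int.cast_neg, abs_neg, Nat.cast_add, Nat.cast_one, Int.cast_add, Int.cast_natCast,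
      Int.cast_one]
    rw [abs_of_nonneg (by linarith : (0 : ℝ) ≤ (B : ℝ) + 1)]
    have key : 2 * (1 / (2 * ((B : ℝ) + 1) + 1) ^ 2) ≤
        1 / (2 * ((B : ℝ) + 1)) - 1 / (2 * ((B : ℝ) + 1 + 1)) := by
      rw [div_sub_div _ _ (by positivity) (by positivity), mul_one_div, div_le_div_iff₀
        (by positivity) (by positivity)]
      nlinarith
    linarith

end Vale.Agent.P126.Uncond
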