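import Vale.Agent.P126.Uncond.Kraft
import Vale.Agent.P126.Uncond.Sums

/-!
Sorted tuples of finite sets and a count of integer tuples of bounded logarithmic size (P126).
-/

open Finset Real

namespace Vale.Agent.P126.Uncond

variable {ι : Type*} [Fintype ι] [LinearOrder ι]

/-- The sorted tuple of a set, padded to length `V`. -/
noncomputable def encode (V : ℕ) (T : Finset ι) (t : Fin V) : WithTop ι :=
  if h : (t : ℕ) < T.card then ((T.orderEmbOfFin rfl ⟨t, h⟩ : ι) : WithTop ι) else ⊤

omit [Fintype ι] in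
theorem encode_of_lt {V : ℕ} {T : Finset ι} {t : Fin V} (h : (t : ℕ) < T.card) :
    encode V T t = ((T.orderEmbOfFin rfl ⟨t, h⟩ : ι) : WithTop ι) := dif_pos h

omit [Fintype ι] in
theorem exists_encode {V : ℕ} {T : Finset ι} (hT : T.card ≤ V) {i : ι} (hi : i ∈ T) :
    ∃ t : Fin V, (t : ℕ) < T.card ∧ encode V T t = (i : WithTop ι) := by
  obtain ⟨⟨j, hj⟩, rfl⟩ := (Set.ext_iff.1 (range_orderEmbOfFin T rfl) i).2 hi
  exact ⟨⟨j, lt_of_lt_of_le hj hT⟩, hj, encode_of_lt hj⟩

omit [Fintype ι] in
theorem encode_mem {V : ℕ} {T : Finset ι} {t : Fin V} {i : ι}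
    (h : encode V T t = (i : WithTop ι)) : i ∈ T := by
  by_cases ht : (t : ℕ) < T.card
  · rw [encode_of_lt ht, WithTop.coe_inj] at h
    exact h ▸ orderEmbOfFin_mem T rfl _
  · rw [encode, dif_neg ht] at h
    exact absurd h WithTop.top_ne_coe

omit [Fintype ι] in
theorem encode_strictMono {V : ℕ} (T : Finset ι) :
    StrictMonoOn (encode V T) {t : Fin V | (t : ℕ) < T.card} := by
  intro a ha b hb hab
  rw [encode_of_lt ha, encode_of_lt hb, WithTop.coe_lt_coe]
  exact (T.orderEmbOfFin rfl).strictMono hab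

/-- Integer tuples with bounded logarithmic size are few. -/
theorem card_log_tuples_le (T : Finset ι) (E : ℕ) (A : ℝ) :
    (((Fintype.piFinset fun i => if i ∈ T then Icc (-(E : ℤ)) E else {0}).filter
      fun k => ∑ i ∈ T, log (2 * |(k i : ℝ)| + 1) ≤ A).card : ℝ) ≤
      exp (2 * A) * (3 / 2) ^ T.card := by
  classical
  set P := Fintype.piFinset fun i => if i ∈ T then Icc (-(E : ℤ)) E else {0}
  calc (((P.filter fun k => ∑ i ∈ T, log (2 * |(k i : ℝ)| + 1) ≤ A).card : ℕ) : ℝ)
      = ∑ _k ∈ P.filter (fun k => ∑ i ∈ T, log (2 * |(k i : ℝ)| + 1) ≤ A), 1 := by simp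
    _ ≤ ∑ k ∈ P.filter (fun k => ∑ i ∈ T, log (2 * |(k i : ℝ)| + 1) ≤ A),
        exp (2 * A - 2 * ∑ i ∈ T, log (2 * |(k i : ℝ)| + 1)) := by
        refine sum_le_sum fun k hk => one_le_exp ?_
        linarith [(mem_filter.1 hk).2]
    _ ≤ ∑ k ∈ P, exp (2 * A) *
        ∏ i, if i ∈ T then 1 / (2 * |(k i : ℝ)| + 1) ^ 2 else 1 := by
        refine le_trans (le_of_eq (sum_congr rfl fun k _ => ?_))
          (sum_le_sum_of_subset_of_nonneg (filter_subset _ _) fun k _ _ => ?_)
        · rw [prod_ite_mem, univ_inter, sub_eq_add_neg, exp_add, ← mul_neg, ← sum_neg_distrib,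
            mul_sum, exp_sum]
          congr 1
          refine prod_congr rfl fun i _ => ?_
          have h : (0 : ℝ) < 2 * |(k i : ℝ)| + 1 := by positivity
          rw [mul_neg, exp_neg, one_div, inv_inj, show (2 : ℝ) = ((2 : ℕ) : ℝ) by norm_num,
            exp_nat_mul, exp_log (by push_cast; exact h)]
        · refine mul_nonneg (exp_pos _).le (prod_nonneg fun i _ => ?_)
          split_ifs <;> positivity
    _ ≤ exp (2 * A) * (3 / 2) ^ T.card := by
        rw [← mul_sum, ← prod_univ_sum (fun i => if i ∈ T then Icc (-(E : ℤ)) E else {0})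
          fun i (m : ℤ) => if i ∈ T then 1 / (2 * |(m : ℝ)| + 1) ^ 2 else 1,
          ← prod_mul_prod_compl T, prod_eq_one (s := Tᶜ) fun i hi => by simp [mem_compl.1 hi],
          mul_one]
        refine mul_le_mul_of_nonneg_left ((prod_le_prod (fun i hi => ?_) fun i hi => ?_).trans_eq
          (prod_const _)) (exp_pos _).le
        · simp only [hi, if_true]
          positivity
        · simp only [hi, if_true]
          exact sum_inv_sq_le E

end Vale.Agent.P126.Uncond
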