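import Mathlib

/-!
Chain-rule surprisals of a finite set of tuples and their Kraft inequality (P126).
-/

open Finset Real

namespace Vale.Agent.P126.Uncond

variable {α : Type*} [DecidableEq α]

/-- Every finite set of tuples has surprisals `l`: they add up to the logarithm of the size, and
tuples with prescribed values on `J` satisfy Kraft's inequality in the other coordinates. -/
theorem exists_surprisal : ∀ {v : ℕ} (X : Finset (Fin v → α)),
    ∃ l : (Fin v → α) → Fin v → ℝ, (∀ x ∈ X, ∀ t, 0 ≤ l x t) ∧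
      (∀ x ∈ X, ∑ t, l x t = log X.card) ∧
      ∀ (J : Finset (Fin v)) (Y : Finset (Fin v → α)), Y ⊆ X →
        (∀ x ∈ Y, ∀ y ∈ Y, ∀ t ∈ J, x t = y t) →
        ∑ x ∈ Y, exp (-∑ t ∈ Jᶜ, l x t) ≤ 1 := by
  intro v
  induction v with
  | zero =>
    intro X
    refine ⟨fun _ _ => 0, by simp, fun x hx => ?_, fun J Y _ _ => ?_⟩
    · have : X.card = 1 := le_antisymm (card_le_one.2 fun a _ b _ => Subsingleton.elim a b)
        (card_pos.2 ⟨x, hx⟩)
      simp [this]
    · have hc : Y.card ≤ 1 := card_le_one.2 fun a _ b _ => Subsingleton.elim a b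
      simpa [Finset.eq_empty_of_isEmpty Jᶜ] using hc
  | succ v ih =>
    intro X
    classical
    set sl : α → Finset (Fin v → α) := fun a => (X.filter fun x => x 0 = a).image Fin.tail with hsl
    choose g hg0 hgsum hgK using fun a => ih (sl a)
    have hmem : ∀ x ∈ X, Fin.tail x ∈ sl (x 0) := fun x hx =>
      mem_image_of_mem _ (mem_filter.2 ⟨hx, rfl⟩)
    have hinj : ∀ a, Set.InjOn Fin.tail ({x | x 0 = a} : Set (Fin (v + 1) → α)) := by
      intro a x hx y hy e
      rw [← Fin.cons_self_tail x, ← Fin.cons_self_tail y, e, hx, hy]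
    have hcard : ∀ a, (sl a).card = (X.filter fun x => x 0 = a).card := fun a =>
      card_image_of_injOn ((hinj a).mono fun x hx => (mem_filter.1 (mem_coe.1 hx)).2)
    have hfib : ∑ a ∈ X.image (fun x => x 0), (sl a).card = X.card := by
      rw [card_eq_sum_card_image (fun x : Fin (v + 1) → α => x 0) X]
      exact sum_congr rfl fun a _ => hcard a
    refine ⟨fun x => Fin.cons (α := fun _ => ℝ) (log X.card - log (sl (x 0)).card)
      (g (x 0) (Fin.tail x)), fun x hx t => ?_, fun x hx => ?_, fun J Y hY hJ => ?_⟩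
    · refine Fin.cases ?_ (fun t => ?_) t
      · have hpos : 0 < (sl (x 0)).card := card_pos.2 ⟨_, hmem x hx⟩
        simp only [Fin.cons_zero, sub_nonneg]
        refine log_le_log (by exact_mod_cast hpos) ?_
        rw [hcard]
        exact_mod_cast card_filter_le _ _
      · simpa using hg0 _ _ (hmem x hx) t
    · rw [Fin.sum_univ_succ]
      simp only [Fin.cons_zero, Fin.cons_succ, hgsum _ _ (hmem x hx)]
      ring
    · rcases Y.eq_empty_or_nonempty with rfl | ⟨x₀, hx₀⟩
      · simp
      set J' : Finset (Fin v) := univ.filter fun t => t.succ ∈ J with hJ'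
      have hM : (0 : ℝ) < X.card := by exact_mod_cast card_pos.2 ⟨x₀, hY hx₀⟩
      set w : α → ℝ := fun a => if (0 : Fin (v + 1)) ∈ J then 1 else (sl a).card / X.card with hw
      have hterm : ∀ a ∈ Y.image (fun x => x 0), ∑ x ∈ Y.filter (fun x => x 0 = a),
          exp (-∑ t ∈ Jᶜ, Fin.cons (α := fun _ => ℝ) (log X.card - log (sl (x 0)).card)
            (g (x 0) (Fin.tail x)) t) ≤ w a := by
        intro a ha
        obtain ⟨x₁, hx₁, hx₁a⟩ := mem_image.1 ha
        have hapos : (0 : ℝ) < (sl a).card := by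
          exact_mod_cast card_pos.2 ⟨_, hx₁a ▸ hmem x₁ (hY hx₁)⟩
        have hsplit : ∀ x ∈ Y.filter (fun x => x 0 = a),
            exp (-∑ t ∈ Jᶜ, Fin.cons (α := fun _ => ℝ) (log X.card - log (sl (x 0)).card)
              (g (x 0) (Fin.tail x)) t) = w a * exp (-∑ t ∈ J'ᶜ, g a (Fin.tail x) t) := by
          intro x hx
          obtain ⟨-, rfl⟩ := mem_filter.1 hx
          set G := g (x 0) (Fin.tail x)
          have h1 : ∀ h : Fin (v + 1) → ℝ, ∑ t ∈ Jᶜ, h t =
              (if (0 : Fin (v + 1)) ∈ J then 0 else h 0) + ∑ t ∈ J'ᶜ, h t.succ := by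
            intro h
            rw [show Jᶜ = univ.filter (· ∉ J) by ext t; simp,
              show J'ᶜ = univ.filter (fun t => t.succ ∉ J) by ext t; simp [hJ'], sum_filter,
              sum_filter, Fin.sum_univ_succ, ite_not]
          rw [h1]
          simp only [Fin.cons_zero, Fin.cons_succ, neg_add, exp_add, hw]
          split_ifs with h0
          · simp
          · rw [neg_sub, exp_sub, exp_log hapos, exp_log hM]
        rw [sum_congr rfl hsplit, ← mul_sum]
        refine mul_le_of_le_one_right (by simp only [hw]; positivity) ?_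
        have h2 := hgK a J' ((Y.filter fun x => x 0 = a).image Fin.tail)
          (image_subset_image (filter_subset_filter _ hY)) (by
            intro p hp q hq t ht
            obtain ⟨x, hx, rfl⟩ := mem_image.1 hp
            obtain ⟨y, hy, rfl⟩ := mem_image.1 hq
            exact hJ x (mem_filter.1 hx).1 y (mem_filter.1 hy).1 t.succ (mem_filter.1 ht).2)
        have hi : Set.InjOn Fin.tail (↑(Y.filter fun x => x 0 = a) : Set (Fin (v + 1) → α)) :=
          (hinj a).mono fun x hx => (mem_filter.1 (mem_coe.1 hx)).2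
        rwa [sum_image hi] at h2
      rw [← sum_fiberwise_of_maps_to (t := Y.image fun x => x 0) (g := fun x => x 0)
        fun x hx => mem_image_of_mem _ hx]
      refine (sum_le_sum hterm).trans ?_
      simp only [hw]
      split_ifs with h0
      · simp only [sum_const, nsmul_eq_mul, mul_one]
        exact_mod_cast card_le_one.2 fun a ha b hb => by
          obtain ⟨x, hx, rfl⟩ := mem_image.1 ha
          obtain ⟨y, hy, rfl⟩ := mem_image.1 hb
          exact hJ x hx y hy 0 h0
      · rw [← sum_div, div_le_one hM]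
        calc ∑ a ∈ Y.image (fun x => x 0), ((sl a).card : ℝ)
            ≤ ∑ a ∈ X.image (fun x => x 0), ((sl a).card : ℝ) :=
              sum_le_sum_of_subset_of_nonneg (image_subset_image hY) fun a _ _ => by positivity
          _ = X.card := by exact_mod_cast hfib

omit [DecidableEq α] in
/-- Tuples sharing a key, which fixes their values on a set of coordinates carrying all but a
fraction `β` of the surprisal, number at most `card ^ β`. -/
theorem card_le_of_key {v : ℕ} (X : Finset (Fin v → α)) {κ : Type*} [DecidableEq κ]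
    (l : (Fin v → α) → Fin v → ℝ)
    (hK : ∀ (J : Finset (Fin v)) (Y : Finset (Fin v → α)), Y ⊆ X →
      (∀ x ∈ Y, ∀ y ∈ Y, ∀ t ∈ J, x t = y t) → ∑ x ∈ Y, exp (-∑ t ∈ Jᶜ, l x t) ≤ 1)
    (key : (Fin v → α) → κ) (Z : Finset κ) (hZ : ∀ x ∈ X, key x ∈ Z) (mask : κ → Finset (Fin v))
    (heq : ∀ x ∈ X, ∀ y ∈ X, key x = key y → ∀ t ∈ mask (key x), x t = y t) {β : ℝ}
    (hsmall : ∀ x ∈ X, ∑ t ∈ (mask (key x))ᶜ, l x t ≤ β) :
    (X.card : ℝ) ≤ Z.card * exp β := by
  have hfib : ∀ k ∈ Z, ((X.filter fun x => key x = k).card : ℝ) ≤ exp β := by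
    intro k _
    have h1 := hK (mask k) (X.filter fun x => key x = k) (filter_subset _ _)
      fun x hx y hy t ht => by
        obtain ⟨hxX, hxk⟩ := mem_filter.1 hx
        obtain ⟨hyX, hyk⟩ := mem_filter.1 hy
        exact heq x hxX y hyX (hxk.trans hyk.symm) t (hxk ▸ ht)
    have h2 : ∀ x ∈ X.filter (fun x => key x = k),
        exp (-β) ≤ exp (-∑ t ∈ (mask k)ᶜ, l x t) := fun x hx => by
      obtain ⟨hxX, hxk⟩ := mem_filter.1 hx
      exact hxk ▸ exp_le_exp.2 (neg_le_neg (hsmall x hxX))
    have h3 := (card_nsmul_le_sum _ _ _ h2).trans h1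
    rw [nsmul_eq_mul, exp_neg] at h3
    rwa [← div_eq_mul_inv, div_le_one (exp_pos _)] at h3
  rw [card_eq_sum_card_fiberwise (f := key) (t := Z) hZ, Nat.cast_sum]
  refine (sum_le_sum hfib).trans_eq ?_
  rw [sum_const, nsmul_eq_mul]

/-- A strictly monotone enumeration is determined by its range. -/
theorem eqOn_of_image_eq {σ τ : Type*} [LinearOrder σ] [LinearOrder τ] {J : Finset σ}
    {f g : σ → τ} (hf : StrictMonoOn f ↑J) (hg : StrictMonoOn g ↑J)
    (h : J.image f = J.image g) : ∀ t ∈ J, f t = g t := by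
  have rank : ∀ {f : σ → τ}, StrictMonoOn f ↑J → ∀ t ∈ J,
      ((J.image f).filter (· < f t)).card = (J.filter (· < t)).card := by
    intro f hf t ht
    rw [filter_image, card_image_of_injOn (hf.injOn.mono (coe_subset.2 (filter_subset _ _)))]
    exact congrArg _ (filter_congr fun s hs => hf.lt_iff_lt hs ht)
  intro t ht
  have e := (rank hf t ht).trans (rank hg t ht).symm
  rw [← h] at e
  have ha : f t ∈ J.image f := mem_image_of_mem _ ht
  have hb : g t ∈ J.image f := h ▸ mem_image_of_mem _ ht
  refine le_antisymm (not_lt.1 fun hlt => ?_) (not_lt.1 fun hlt => ?_)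
  · refine e.not_gt (card_lt_card ((ssubset_iff_of_subset fun s hs => ?_).2
      ⟨g t, mem_filter.2 ⟨hb, hlt⟩, fun hs => lt_irrefl _ (mem_filter.1 hs).2⟩))
    exact mem_filter.2 ⟨(mem_filter.1 hs).1, (mem_filter.1 hs).2.trans hlt⟩
  · refine e.symm.not_gt (card_lt_card ((ssubset_iff_of_subset fun s hs => ?_).2
      ⟨f t, mem_filter.2 ⟨ha, hlt⟩, fun hs => lt_irrefl _ (mem_filter.1 hs).2⟩))
    exact mem_filter.2 ⟨(mem_filter.1 hs).1, (mem_filter.1 hs).2.trans hlt⟩

end Vale.Agent.P126.Uncond
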